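import Vale.Agent.Lib.P133T.Bridge

/-! # P133: classes of C*-algebras for which the three notions of pure infiniteness coincide -/

namespace Vale.Agent.Results.P133.CoincidenceThree

open Vale.Agent.P133T

universe u

/-- Weak pure infiniteness, pure infiniteness and strong pure infiniteness coincide for a
C*-algebra `A` (1) if for every positive `h` and `ε > 0` only finitely many closed two-sided ideals
are maximal among those at distance at least `ε` from `h`; in particular (2) if its closed two-sided
ideals contain no infinite antichain, and (3) if they are totally ordered. -/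
theorem result (A : Type u) [NonUnitalCStarAlgebra A] [PartialOrder A] [StarOrderedRing A] :
    ((∀ h : A, 0 ≤ h → ∀ ε : ℝ, 0 < ε →
        {I : TwoSidedIdeal A | Maximal (fun J : TwoSidedIdeal A =>
          IsClosed (J : Set A) ∧ ε ≤ Metric.infDist h (J : Set A)) I}.Finite) →
      [WeaklyPurelyInf A, PurelyInf A, StronglyPurelyInf A].TFAE) ∧
    ((∀ S : Set (TwoSidedIdeal A), (∀ I ∈ S, IsClosed (I : Set A)) →
        IsAntichain (· ≤ ·) S → S.Finite) →
      [WeaklyPurelyInf A, PurelyInf A, StronglyPurelyInf A].TFAE) ∧
    ((∀ I J : TwoSidedIdeal A, IsClosed (I : Set A) → IsClosed (J : Set A) → I ≤ J ∨ J ≤ I) →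
      [WeaklyPurelyInf A, PurelyInf A, StronglyPurelyInf A].TFAE) := by
  refine ⟨fun h => tfae_of (_root_.P133.mainTame (finiteMaximal_of h)),
    fun h => tfae_of (_root_.P133.main h), fun h => tfae_of (_root_.P133.main fun S hS hanti => ?_)⟩
  refine Set.Subsingleton.finite fun I hI J hJ => ?_
  rcases h I J (hS I hI) (hS J hJ) with h1 | h1
  · exact hanti.eq hI hJ h1
  · exact (hanti.eq hJ hI h1).symm

end Vale.Agent.Results.P133.CoincidenceThree
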