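import Vale.Agent.Lib.P133.Final

/-!
# P133: the three notions of pure infiniteness coincide for C*-algebras whose closed two-sided
ideals contain no infinite antichain
-/

namespace Vale.Agent.Results.P133.NoInfiniteAntichain

universe u

variable {A : Type u} [NonUnitalCStarAlgebra A]

/-- positive elements of a C*-algebra -/
def Pos (x : A) : Prop := ∃ c : A, x = star c * c

/-- Cuntz comparison `U ≾ V` of square matrices over `A`: there are rectangular matrices `X` over `A`
with `X* V X` arbitrarily close to `U` (convergence in norm of matrices of a fixed size is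
entrywise convergence) -/
def Cuntz {p q : Type} [Fintype q] (U : Matrix p p A) (V : Matrix q q A) : Prop :=
  ∀ ε : ℝ, 0 < ε → ∃ X : Matrix q p A, ∀ i j, ‖(X.conjTranspose * V * X - U) i j‖ < ε

/-- `H` is properly infinite: `H ⊕ H ≾ H` -/
def ProperlyInfinite {p : Type} [Fintype p] (H : Matrix p p A) : Prop :=
  Cuntz (Matrix.fromBlocks H 0 0 H) H

variable (A)

/-- every positive element is properly infinite -/
def PurelyInfinite : Prop :=
  ∀ h : A, Pos h → ProperlyInfinite (Matrix.diagonal fun _ : Fin 1 => h)

/-- for some `n ≥ 1` the `n`-fold diagonal amplification of every positive element is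
properly infinite -/
def WeaklyPurelyInfinite : Prop :=
  ∃ n : ℕ, 1 ≤ n ∧ ∀ h : A, Pos h → ProperlyInfinite (Matrix.diagonal fun _ : Fin n => h)

/-- strong pure infiniteness (Kirchberg-Sierakowski form) -/
def StronglyPurelyInfinite : Prop :=
  ∀ x y : A, Pos x → Pos y → ∀ ε : ℝ, 0 < ε → ∃ s t : A,
    ‖star s * (x * x) * s - x * x‖ < ε ∧ ‖star t * (y * y) * t - y * y‖ < ε ∧
      ‖star s * (x * y) * t‖ < ε

variable {A}

theorem result
    (hA : ∀ S : Set (TwoSidedIdeal A), (∀ I ∈ S, IsClosed (I : Set A)) →
      IsAntichain (· ≤ ·) S → S.Finite) :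
    (WeaklyPurelyInfinite A ↔ PurelyInfinite A) ∧
      (PurelyInfinite A ↔ StronglyPurelyInfinite A) :=
  _root_.P133.main hA

end Vale.Agent.Results.P133.NoInfiniteAntichain
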